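import Vale.Agent.P190.Universe
import Vale.Agent.P190.Hat.Main
import Vale.Agent.P190.Spread.Limit
import Vale.Agent.P190.Minimise.Main
import Vale.Agent.P190.Bound.Main
import Vale.Agent.P190.Example.Main

/-!
P190: the small Cohen–Macaulay module conjecture fails.
-/

namespace Vale.Agent.Results.P190.NoSmallCM

universe u

open Vale.Agent.P190 in
/-- There is a three-dimensional complete local domain without a small Cohen–Macaulay module. -/
theorem result :
    ∃ (A : Type) (_ : CommRing A) (_ : IsDomain A) (_ : IsLocalRing A),
      IsNoetherianRing A ∧ IsAdicComplete (IsLocalRing.maximalIdeal A) A ∧ ringKrullDim A = 3 ∧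
        ∀ (M : Type u) [AddCommGroup M] [Module A M] [Module.Finite A M] (rs : List A),
          rs.length = 3 → (∀ a ∈ rs, a ∈ IsLocalRing.maximalIdeal A) →
            ¬ RingTheory.Sequence.IsRegular M rs :=
  no_small_cm_of_target
    (target_of hatModule spreadModule minimiseModule boundModule Example.exampleModule)

end Vale.Agent.Results.P190.NoSmallCM
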